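import Mathlib

namespace Vale.Agent.Lib.P355

/-- Two orthonormal bases of `ℂ^6` are mutually unbiased: `|⟨b, c⟩|^2 = 1/6` for all
vectors `b` of the first and `c` of the second basis. -/
def Unbiased (B C : OrthonormalBasis (Fin 6) ℂ (EuclideanSpace ℂ (Fin 6))) : Prop :=
  ∀ i j, ‖inner ℂ (B i) (C j)‖ ^ 2 = 1 / 6

/-- The vector `v` of `ℂ^6` is a nonzero complex multiple of a vector all of whose
coordinates lie in the subfield `K` of `ℂ` (the ray of `v` is defined over `K`). -/
def DefinedOver (K : Subfield ℂ) (v : EuclideanSpace ℂ (Fin 6)) : Prop :=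
  ∃ t : ℂ, t ≠ 0 ∧ ∀ j, t * v j ∈ K

end Vale.Agent.Lib.P355
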