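import Vale.Agent.Lib.P355.Quad

namespace Vale.Agent.Lib.P355

open Complex

theorem sqrt_sq_neg (m : ℕ) :
    (((Real.sqrt m : ℝ) : ℂ) * Complex.I) * (((Real.sqrt m : ℝ) : ℂ) * Complex.I) = -(m : ℂ) := by
  have h : ((Real.sqrt m : ℝ) : ℂ) * ((Real.sqrt m : ℝ) : ℂ) = (m : ℂ) := by
    rw [← Complex.ofReal_mul, Real.mul_self_sqrt (Nat.cast_nonneg m)]; simp
  calc (((Real.sqrt m : ℝ) : ℂ) * Complex.I) * (((Real.sqrt m : ℝ) : ℂ) * Complex.I)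
      = (((Real.sqrt m : ℝ) : ℂ) * ((Real.sqrt m : ℝ) : ℂ)) * (Complex.I * Complex.I) := by ring
    _ = -(m : ℂ) := by rw [h, Complex.I_mul_I]; ring

/-- If `w * w = -m` then every element of the subfield generated by `w` is `p + q w` with
`p`, `q` rational. -/
theorem mem_form_aux (m : ℕ) (w : ℂ) (hww : w * w = -(m : ℂ)) (z : ℂ)
    (hz : z ∈ Subfield.closure {w}) :
    ∃ p q : ℚ, z = (p : ℂ) + (q : ℂ) * w := by
  induction hz using Subfield.closure_induction with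
  | mem x hx =>
    rw [Set.mem_singleton_iff] at hx
    exact ⟨0, 1, by rw [hx]; simp⟩
  | one => exact ⟨1, 0, by simp⟩
  | add x y _ _ hx hy =>
    obtain ⟨p1, q1, rfl⟩ := hx
    obtain ⟨p2, q2, rfl⟩ := hy
    exact ⟨p1 + p2, q1 + q2, by push_cast; ring⟩
  | neg x _ hx =>
    obtain ⟨p1, q1, rfl⟩ := hx
    exact ⟨-p1, -q1, by push_cast; ring⟩
  | inv x _ hx =>
    obtain ⟨p1, q1, rfl⟩ := hx
    by_cases h0 : (p1 : ℂ) + (q1 : ℂ) * w = 0
    · exact ⟨0, 0, by rw [h0]; simp⟩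
    · have hN : (p1 : ℂ) ^ 2 + (m : ℂ) * (q1 : ℂ) ^ 2 ≠ 0 := by
        intro hN
        apply h0
        have hNq : p1 ^ 2 + (m : ℚ) * q1 ^ 2 = 0 := by exact_mod_cast hN
        have hp0 : p1 = 0 := by
          have h1 : 0 ≤ (m : ℚ) * q1 ^ 2 := by positivity
          have h2 : 0 ≤ p1 ^ 2 := by positivity
          have : p1 ^ 2 = 0 := by linarith
          simpa using this
        have hmq : (m : ℚ) * q1 ^ 2 = 0 := by rw [hp0] at hNq; simpa using hNq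
        rcases mul_eq_zero.mp hmq with hm0 | hq0
        · have hm0' : m = 0 := by exact_mod_cast hm0
          have hw0 : w = 0 := by
            rw [hm0'] at hww
            simpa using hww
          rw [hp0, hw0]; simp
        · have hq0' : q1 = 0 := by simpa using hq0
          rw [hp0, hq0']; simp
      refine ⟨p1 / (p1 ^ 2 + (m : ℚ) * q1 ^ 2), -q1 / (p1 ^ 2 + (m : ℚ) * q1 ^ 2), ?_⟩
      apply inv_eq_of_mul_eq_one_right
      push_cast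
      calc ((p1 : ℂ) + (q1 : ℂ) * w) * ((p1 : ℂ) / ((p1 : ℂ) ^ 2 + (m : ℂ) * (q1 : ℂ) ^ 2)
            + -(q1 : ℂ) / ((p1 : ℂ) ^ 2 + (m : ℂ) * (q1 : ℂ) ^ 2) * w)
          = ((p1 : ℂ) ^ 2 - (q1 : ℂ) ^ 2 * (w * w)) / ((p1 : ℂ) ^ 2 + (m : ℂ) * (q1 : ℂ) ^ 2) := by
            ring
        _ = ((p1 : ℂ) ^ 2 + (m : ℂ) * (q1 : ℂ) ^ 2) / ((p1 : ℂ) ^ 2 + (m : ℂ) * (q1 : ℂ) ^ 2) := by
            rw [hww]; ring
        _ = 1 := div_self hN
  | mul x y _ _ hx hy =>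
    obtain ⟨p1, q1, rfl⟩ := hx
    obtain ⟨p2, q2, rfl⟩ := hy
    refine ⟨p1 * p2 - m * (q1 * q2), p1 * q2 + p2 * q1, ?_⟩
    push_cast
    linear_combination (q1 : ℂ) * (q2 : ℂ) * hww

/-- `ℚ(√-m)` is stable under complex conjugation. -/
theorem conj_mem (m : ℕ) (z : ℂ)
    (hz : z ∈ Subfield.closure {((Real.sqrt m : ℝ) : ℂ) * Complex.I}) :
    (starRingEnd ℂ) z ∈ Subfield.closure {((Real.sqrt m : ℝ) : ℂ) * Complex.I} := by
  obtain ⟨p, q, rfl⟩ := mem_form_aux m _ (sqrt_sq_neg m) z hz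
  have hw : ((Real.sqrt m : ℝ) : ℂ) * Complex.I ∈
      Subfield.closure {((Real.sqrt m : ℝ) : ℂ) * Complex.I} :=
    Subfield.subset_closure (Set.mem_singleton _)
  have e : (starRingEnd ℂ) ((p : ℂ) + (q : ℂ) * (((Real.sqrt m : ℝ) : ℂ) * Complex.I))
      = (p : ℂ) - (q : ℂ) * (((Real.sqrt m : ℝ) : ℂ) * Complex.I) := by
    simp only [map_add, map_mul, Complex.conj_ofReal, Complex.conj_I, map_ratCast]
    ring
  rw [e]
  exact sub_mem (SubfieldClass.ratCast_mem _ p) (mul_mem (SubfieldClass.ratCast_mem _ q) hw)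

/-- `6` is not a norm from `ℚ(√-m)` when `m ≡ 1 (mod 3)` or `m ≡ 3 (mod 8)`. -/
theorem normSq_ne_six (m : ℕ) (hm : m % 3 = 1 ∨ m % 8 = 3) (z : ℂ)
    (hz : z ∈ Subfield.closure {((Real.sqrt m : ℝ) : ℂ) * Complex.I}) :
    Complex.normSq z ≠ 6 := by
  obtain ⟨p, q, rfl⟩ := mem_form_aux m _ (sqrt_sq_neg m) z hz
  intro h
  have e : (p : ℂ) + (q : ℂ) * (((Real.sqrt m : ℝ) : ℂ) * Complex.I)
      = (((p : ℝ)) : ℂ) + ((((q : ℝ) * Real.sqrt m : ℝ)) : ℂ) * Complex.I := by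
    push_cast; ring
  rw [e, Complex.normSq_add_mul_I] at h
  have h2 : ((q : ℝ) * Real.sqrt m) ^ 2 = (m : ℝ) * (q : ℝ) ^ 2 := by
    rw [mul_pow, Real.sq_sqrt (Nat.cast_nonneg m)]; ring
  rw [h2] at h
  have h3 : ((p ^ 2 + (m : ℚ) * q ^ 2 : ℚ) : ℝ) = ((6 : ℚ) : ℝ) := by
    push_cast; exact h
  exact no_rat m hm p q (by exact_mod_cast h3)

end Vale.Agent.Lib.P355
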