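import Vale.Agent.Lib.P355.Field

namespace Vale.Agent.Lib.P355

open Complex

/-- General criterion: if `6` is not a norm from the conjugation-stable subfield `K`, no three
pairwise mutually unbiased bases of `ℂ^6` contain one vector each with ray defined over `K`. -/
theorem criterion (K : Subfield ℂ) (hK : ∀ z ∈ K, (starRingEnd ℂ) z ∈ K)
    (h6 : ∀ z ∈ K, Complex.normSq z ≠ 6)
    (B₁ B₂ B₃ : OrthonormalBasis (Fin 6) ℂ (EuclideanSpace ℂ (Fin 6)))
    (h12 : Unbiased B₁ B₂) (h23 : Unbiased B₂ B₃) (h13 : Unbiased B₁ B₃) (i j k : Fin 6) :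
    ¬ (DefinedOver K (B₁ i) ∧ DefinedOver K (B₂ j) ∧ DefinedOver K (B₃ k)) := by
  rintro ⟨h1, h2, h3⟩
  obtain ⟨z, hz, hz6⟩ := six_is_norm K hK (B₁ i) (B₂ j) (B₃ k) (B₁.orthonormal.norm_eq_one i)
    (h12 i j) (h23 j k) (h13 i k) h1 h2 h3
  exact h6 z hz hz6

/-- Every vector of the standard basis has its ray defined over any subfield. -/
theorem definedOver_std (K : Subfield ℂ) (i : Fin 6) :
    DefinedOver K (EuclideanSpace.basisFun (Fin 6) ℂ i) := by
  refine ⟨1, one_ne_zero, fun j => ?_⟩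
  rw [one_mul, EuclideanSpace.basisFun_apply, PiLp.single_apply]
  split_ifs
  · exact one_mem K
  · exact zero_mem K

/-- The same with the standard basis as one of the three bases. -/
theorem criterion_std (K : Subfield ℂ) (hK : ∀ z ∈ K, (starRingEnd ℂ) z ∈ K)
    (h6 : ∀ z ∈ K, Complex.normSq z ≠ 6)
    (B₂ B₃ : OrthonormalBasis (Fin 6) ℂ (EuclideanSpace ℂ (Fin 6)))
    (h12 : Unbiased (EuclideanSpace.basisFun (Fin 6) ℂ) B₂)
    (h13 : Unbiased (EuclideanSpace.basisFun (Fin 6) ℂ) B₃) (h23 : Unbiased B₂ B₃)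
    (j k : Fin 6) : ¬ (DefinedOver K (B₂ j) ∧ DefinedOver K (B₃ k)) := by
  rintro ⟨h2, h3⟩
  exact criterion K hK h6 _ B₂ B₃ h12 h23 h13 0 j k ⟨definedOver_std K 0, h2, h3⟩

end Vale.Agent.Lib.P355
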