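import Vale.Agent.Lib.P355.Defs

namespace Vale.Agent.Lib.P355

open Complex

/-- Three pairwise unbiased unit vectors of `ℂ^6` with rays defined over a conjugation-stable
subfield `K` force `6` to be a norm `z * conj z` with `z ∈ K`. -/
theorem six_is_norm (K : Subfield ℂ) (hK : ∀ z ∈ K, (starRingEnd ℂ) z ∈ K)
    (a b c : EuclideanSpace ℂ (Fin 6)) (ha : ‖a‖ = 1)
    (hab : ‖inner ℂ a b‖ ^ 2 = 1 / 6) (hbc : ‖inner ℂ b c‖ ^ 2 = 1 / 6)
    (hac : ‖inner ℂ a c‖ ^ 2 = 1 / 6)
    (Ra : DefinedOver K a) (Rb : DefinedOver K b) (Rc : DefinedOver K c) :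
    ∃ z ∈ K, Complex.normSq z = 6 := by
  obtain ⟨ta, hta, ua⟩ := Ra
  obtain ⟨tb, htb, ub⟩ := Rb
  obtain ⟨tc, htc, uc⟩ := Rc
  have pair : ∀ (x y : EuclideanSpace ℂ (Fin 6)) (tx ty : ℂ), (∀ j, tx * x j ∈ K) →
      (∀ j, ty * y j ∈ K) → (starRingEnd ℂ) tx * ty * inner ℂ x y ∈ K := by
    intro x y tx ty hx hy
    have e : (starRingEnd ℂ) tx * ty * inner ℂ x y
        = ∑ j, (starRingEnd ℂ) (tx * x j) * (ty * y j) := by
      rw [PiLp.inner_apply, Finset.mul_sum]
      apply Finset.sum_congr rfl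
      intro j _
      simp only [RCLike.inner_apply, map_mul]
      ring
    rw [e]
    exact sum_mem (fun j _ => mul_mem (hK _ (hx j)) (hy j))
  have hA := pair a a ta ta ua ua
  have hPab := pair a b ta tb ua ub
  have hPbc := pair b c tb tc ub uc
  have hPac := pair a c ta tc ua uc
  refine ⟨((starRingEnd ℂ) ta * ta * inner ℂ a a) * ((starRingEnd ℂ) tb * tc * inner ℂ b c) /
    (((starRingEnd ℂ) ta * tb * inner ℂ a b) * ((starRingEnd ℂ) ta * tc * inner ℂ a c)),
    div_mem (mul_mem hA hPbc) (mul_mem hPab hPac), ?_⟩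
  have haa : Complex.normSq (inner ℂ a a) = 1 := by
    rw [inner_self_eq_norm_sq_to_K, ha]; simp
  have nab : Complex.normSq (inner ℂ a b) = 1 / 6 := by rw [Complex.normSq_eq_norm_sq, hab]
  have nbc : Complex.normSq (inner ℂ b c) = 1 / 6 := by rw [Complex.normSq_eq_norm_sq, hbc]
  have nac : Complex.normSq (inner ℂ a c) = 1 / 6 := by rw [Complex.normSq_eq_norm_sq, hac]
  have pa : Complex.normSq ta ≠ 0 := by simpa using hta
  have pb : Complex.normSq tb ≠ 0 := by simpa using htb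
  have pc : Complex.normSq tc ≠ 0 := by simpa using htc
  rw [map_div₀]
  simp only [map_mul, Complex.normSq_conj, haa, nab, nbc, nac]
  field_simp

end Vale.Agent.Lib.P355
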