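import Vale.Agent.Lib.P355.Norm

namespace Vale.Agent.Lib.P355

open Complex

theorem zmod3_aux : ∀ a b : ZMod 3, a ^ 2 + b ^ 2 = 0 → a = 0 ∧ b = 0 := by decide

theorem zmod3_aux2 : ∀ a : ZMod 3, 2 * a ^ 2 = 0 → a = 0 := by decide

theorem zmod8_aux : ∀ a b c : ZMod 8, a ^ 2 + 3 * b ^ 2 = 6 * c ^ 2 →
    a.val % 2 = 0 ∧ b.val % 2 = 0 ∧ c.val % 2 = 0 := by decide

theorem even_of_val (x : ℤ) (h : (x : ZMod 8).val % 2 = 0) : ∃ x' : ℤ, x = 2 * x' := by
  have h1 : (((x : ZMod 8).val : ℕ) : ℤ) = x % 8 := ZMod.val_intCast x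
  refine ⟨x / 2, ?_⟩
  omega

/-- Infinite descent: `x^2 + m y^2 = 6 z^2` has only the trivial integer solution when
`m ≡ 1 (mod 3)` or `m ≡ 3 (mod 8)`. -/
theorem no_int (m : ℕ) (hm : m % 3 = 1 ∨ m % 8 = 3) :
    ∀ (n : ℕ) (x y z : ℤ), z.natAbs ≤ n → x ^ 2 + m * y ^ 2 = 6 * z ^ 2 → z = 0 := by
  intro n
  induction n with
  | zero => intro x y z hz _; omega
  | succ n ih =>
    intro x y z hz h
    by_contra hz0
    rcases hm with hm | hm
    · have hm3 : ((m : ℤ) : ZMod 3) = 1 := by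
        have : ((m : ℤ) : ZMod 3) = ((m : ℕ) : ZMod 3) := by push_cast; rfl
        rw [this, ← ZMod.natCast_mod, hm]; rfl
      have h3 := congrArg (Int.cast : ℤ → ZMod 3) h
      push_cast at h3
      have h6 : (6 : ZMod 3) = 0 := by decide
      rw [h6, zero_mul] at h3
      have hm3' : (m : ZMod 3) = 1 := by simpa using hm3
      rw [hm3', one_mul] at h3
      obtain ⟨hx, hy⟩ := zmod3_aux _ _ h3
      obtain ⟨x', rfl⟩ := (ZMod.intCast_zmod_eq_zero_iff_dvd x 3).mp hx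
      obtain ⟨y', rfl⟩ := (ZMod.intCast_zmod_eq_zero_iff_dvd y 3).mp hy
      have h' : 3 * (x' ^ 2 + m * y' ^ 2) = 2 * z ^ 2 := by
        push_cast at h; nlinarith [h]
      have h3' := congrArg (Int.cast : ℤ → ZMod 3) h'
      push_cast at h3'
      have h30 : (3 : ZMod 3) = 0 := by decide
      rw [h30, zero_mul] at h3'
      obtain ⟨z', rfl⟩ := (ZMod.intCast_zmod_eq_zero_iff_dvd z 3).mp (zmod3_aux2 _ h3'.symm)
      have h'' : x' ^ 2 + m * y' ^ 2 = 6 * z' ^ 2 := by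
        push_cast at h'; nlinarith [h']
      have hz' : z'.natAbs ≤ n := by
        have : ((3 : ℕ) : ℤ) * z' ≠ 0 := hz0
        have e : (((3 : ℕ) : ℤ) * z').natAbs = 3 * z'.natAbs := by
          rw [Int.natAbs_mul]; rfl
        have : z' ≠ 0 := by
          rintro rfl; simp at hz0
        have : 1 ≤ z'.natAbs := Int.natAbs_pos.mpr this
        omega
      have := ih x' y' z' hz' h''
      subst this
      simp at hz0
    · have hm8 : (m : ZMod 8) = 3 := by
        rw [← ZMod.natCast_mod, hm]; rfl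
      have h8 := congrArg (Int.cast : ℤ → ZMod 8) h
      push_cast at h8
      rw [hm8] at h8
      obtain ⟨hx, hy, hzz⟩ := zmod8_aux _ _ _ h8
      obtain ⟨x', rfl⟩ := even_of_val x hx
      obtain ⟨y', rfl⟩ := even_of_val y hy
      obtain ⟨z', rfl⟩ := even_of_val z hzz
      have h'' : x' ^ 2 + m * y' ^ 2 = 6 * z' ^ 2 := by nlinarith [h]
      have hz' : z'.natAbs ≤ n := by
        have e : ((2 : ℤ) * z').natAbs = 2 * z'.natAbs := by
          rw [Int.natAbs_mul]; rfl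
        have : z' ≠ 0 := by
          rintro rfl; simp at hz0
        have : 1 ≤ z'.natAbs := Int.natAbs_pos.mpr this
        omega
      have := ih x' y' z' hz' h''
      subst this
      simp at hz0

/-- `6` is not of the form `p^2 + m q^2` with `p`, `q` rational. -/
theorem no_rat (m : ℕ) (hm : m % 3 = 1 ∨ m % 8 = 3) (p q : ℚ) : p ^ 2 + m * q ^ 2 ≠ 6 := by
  intro h
  have hp : (p.den : ℚ) ≠ 0 := by exact_mod_cast p.den_pos.ne'
  have hq : (q.den : ℚ) ≠ 0 := by exact_mod_cast q.den_pos.ne'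
  have key : ((p.num * q.den : ℤ) : ℚ) ^ 2 + m * ((q.num * p.den : ℤ) : ℚ) ^ 2
      = 6 * ((p.den * q.den : ℤ) : ℚ) ^ 2 := by
    have e1 : p = p.num / p.den := (Rat.num_div_den p).symm
    have e2 : q = q.num / q.den := (Rat.num_div_den q).symm
    rw [e1, e2] at h
    field_simp at h
    push_cast
    linarith [h]
  have key' : (p.num * q.den : ℤ) ^ 2 + (m : ℤ) * (q.num * p.den : ℤ) ^ 2
      = 6 * (p.den * q.den : ℤ) ^ 2 := by exact_mod_cast key
  have := no_int m hm _ _ _ _ le_rfl key'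
  have hpd : (p.den : ℤ) ≠ 0 := by exact_mod_cast p.den_pos.ne'
  have hqd : (q.den : ℤ) ≠ 0 := by exact_mod_cast q.den_pos.ne'
  exact (mul_ne_zero hpd hqd) this

end Vale.Agent.Lib.P355
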